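import Vale.Agent.P027.Thin

/-!
Hilbert's tenth problem over the rationals: explicit reductions of integral solvability to
rational solvability under weak restrictions on the coordinates.
-/

namespace Vale.Agent.Results.P027.ThinRestrictions

open MvPolynomial

/-- Integral solvability of `f` is equivalent to the solvability of an explicit polynomial in
rational numbers that are restricted as follows.

(A) No coordinate, or only no coordinate `Sum.inr i` (the set `s` of restricted coordinates is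
arbitrary between the two), is the `k`-th power of a rational non-integer (`k ≥ 1` arbitrary). The
excluded set has at most `(2 C + 1) C` elements with numerator and denominator at most `C ^ k`.

(B) Every coordinate in `s` has at most `k` different primes in its denominator, where `s` contains
all coordinates `(i, j)` with `j ≠ 0` and may contain all coordinates (`k` arbitrary; `d`, `d'`
are any coprime odd numbers with exactly `k` different primes; number of variables and degree of
the explicit polynomial do not depend on `k`).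

(C) The numbers of primes in the denominators of the coordinates have sum at most `k`.

(D) If finitely many rational numbers are forbidden as coordinates, solvability is equivalent (by
explicit reductions in both directions) to unrestricted rational solvability. -/
theorem result :
    (∀ k : ℕ, k ≠ 0 →
      (∀ (n : ℕ) (f : MvPolynomial (Fin n) ℤ) (s : Set (Fin n ⊕ Fin n)), (∀ i, Sum.inr i ∈ s) →
        ((∃ z : Fin n → ℤ, aeval z f = 0) ↔
        ∃ x : Fin n ⊕ Fin n → ℚ, (∀ i ∈ s, ¬ ∃ y : ℚ, y.den ≠ 1 ∧ x i = y ^ k) ∧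
          aeval x (rename Sum.inl f ^ 2 +
            ∑ i : Fin n, (X (Sum.inr i) - X (Sum.inl i) ^ k) ^ 2) = 0)) ∧
      ∀ C : ℕ, {r : ℚ | (∃ y : ℚ, y.den ≠ 1 ∧ r = y ^ k) ∧ r.num.natAbs ≤ C ^ k ∧
          r.den ≤ C ^ k}.Finite ∧
        {r : ℚ | (∃ y : ℚ, y.den ≠ 1 ∧ r = y ^ k) ∧ r.num.natAbs ≤ C ^ k ∧
          r.den ≤ C ^ k}.ncard ≤ (2 * C + 1) * C) ∧
    (∀ (n : ℕ) (f : MvPolynomial (Fin n) ℤ) (k d d' : ℕ), Odd d → Odd d' → Nat.Coprime d d' →
      d.primeFactors.card = k → d'.primeFactors.card = k →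
      ∀ s : Set (Fin n × Fin 5), (∀ i j, j ≠ 0 → (i, j) ∈ s) →
      ((∃ z : Fin n → ℤ, aeval z f = 0) ↔
        ∃ x : Fin n × Fin 5 → ℚ, (∀ i ∈ s, (x i).den.primeFactors.card ≤ k) ∧
          aeval x (rename (fun i => (i, (0 : Fin 5))) f ^ 2 + ∑ i : Fin n,
            ((C (d : ℤ) * (X (i, 1) - X (i, 0)) - 1) ^ 2 +
              (C (d : ℤ) * (X (i, 2) - X (i, 0)) + 1) ^ 2 +
              (C (d' : ℤ) * (X (i, 3) - X (i, 0)) - 1) ^ 2 +
              (C (d' : ℤ) * (X (i, 4) - X (i, 0)) + 1) ^ 2)) = 0)) ∧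
    (∀ (n : ℕ) (f : MvPolynomial (Fin n) ℤ) (k d : ℕ), d ≠ 0 → d.primeFactors.card = k →
      ((∃ z : Fin n → ℤ, aeval z f = 0) ↔
        ∃ x : Option (Fin n) → ℚ, ∑ i, (x i).den.primeFactors.card ≤ k ∧
          aeval x (rename some f ^ 2 + (C (d : ℤ) * X none - 1) ^ 2) = 0)) ∧
    (∀ (E : Finset ℚ) (n : ℕ) (f : MvPolynomial (Fin n) ℤ),
      ((∃ x : Fin n → ℚ, aeval x f = 0) ↔
        ∃ x : Fin n ⊕ Fin n → ℚ, (∀ i, x i ∉ E) ∧
          aeval x (bind₁ (fun i => X (Sum.inl i) - X (Sum.inr i)) f) = 0) ∧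
      ((∃ x : Fin n → ℚ, (∀ i, x i ∉ E) ∧ aeval x f = 0) ↔
        ∃ x : Fin n ⊕ Fin n → ℚ, aeval x (rename Sum.inl f ^ 2 + ∑ i : Fin n,
          (X (Sum.inr i) * ∏ e ∈ E, (C (e.den : ℤ) * X (Sum.inl i) - C e.num) - 1) ^ 2) = 0)) :=
  ⟨fun _ hk => ⟨fun _ f s hs => Vale.Agent.P027.thin_reduction hk f s hs,
      fun C => Vale.Agent.P027.count hk C⟩,
    fun _ f _ _ _ hd hd' hc hk hk' s hs =>
      Vale.Agent.P027.primes_reduction f hd hd' hc hk hk' s hs,
    fun _ f _ _ hd hk => Vale.Agent.P027.total_reduction f hd hk,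
    fun E _ f => ⟨Vale.Agent.P027.cofinite_of_rat E f, Vale.Agent.P027.rat_of_cofinite E f⟩⟩

end Vale.Agent.Results.P027.ThinRestrictions
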